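import Vale.Agent.P144Z.H4.Blk
import Vale.Agent.P144Z.I2.Part
import Vale.Agent.P144Z.Top

/-!
The coefficient of the zero modes of the periodic sector.
-/

namespace Vale.Agent.P144Z.H4

open Finset Matrix Kronecker

variable {M : ℕ} [NeZero M]

theorem tc_pos : 0 < tc := by
  unfold tc
  have : (1 : ℝ) < √2 := Real.lt_sqrt_of_sq_lt (by norm_num)
  linarith

theorem det_Dm_gg {a b : ZMod M → ℝ} (ha : IsSign a) (hb : IsSign b) :
    (Dm (gg a b)).det = (2 * tc ^ 2) ^ (M * M) * (lp2 a b).det := by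
  have h := det_blk ha hb (P := 0) (by simp) (by simp) (by simp) (by simp) (by simp) 0
  rw [kronecker_zero, add_zero, smul_zero, add_zero, det_smul] at h
  simpa [ZMod.card] using h

omit [NeZero M] in
theorem gg_one : gg (M := M) 1 1 = 1 := by
  funext e
  simp [gg]

/-- The square of a free sector is a determinant. -/
theorem Zw_sq (A : Gauge M) : Zw par0 A 1 ^ 2 = (Dm A).det := by
  have h := om_one_sq (geoA M A)
  rw [I2.Om_one, map_smul, map_smul, map_one, map_one, smul_eq_mul, mul_one] at h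
  exact h

theorem det_per : (Dm (1 : Gauge M)).det = 0 := by
  have h := det_add_pc (lp2_pc (M := M)) 0
  rw [zero_smul, add_zero, zero_mul] at h
  rw [← gg_one, det_Dm_gg sign_one sign_one, h, mul_zero]

theorem Zw_per : Zw par0 (1 : Gauge M) 1 = 0 :=
  pow_eq_zero_iff two_ne_zero |>.1 ((Zw_sq 1).trans det_per)

/-- The two-form of the constant zero modes. -/
noncomputable def jz : Matrix (Fin 4) (Fin 4) ℝ :=
  vecMulVec (kv 0) (kv 1) - (vecMulVec (kv 0) (kv 1))ᵀ

theorem kap_sq : kap M ^ 2 =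
    (2 * tc ^ 2) ^ (M * M) * ((sym (1 : ℝ) 1 1 1 + jz).det / (2 * tc ^ 2) *
      (lp2 (M := M) 1 1 + pc M).det) := by
  have hc : 2 * tc ^ 2 ≠ 0 := by have := tc_pos; positivity
  have h := om_sq (geo0 M) (zm M 0) (zm M 1)
  have h0 : aug (Ev.val ((geo0 M).Om 1)) = 0 :=
    pow_eq_zero_iff two_ne_zero |>.1 ((om_one_sq (geo0 M)).trans det_per)
  rw [I2.Om_add, map_add, map_add, h0, zero_add] at h
  have e : vecMulVec (zm M 0) (zm M 1) - (vecMulVec (zm M 0) (zm M 1))ᵀ = pc M ⊗ₖ jz := by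
    ext s t
    simp only [Matrix.sub_apply, transpose_apply, vecMulVec_apply, zm, kroneckerMap_apply, pc, jz]
    ring
  have r1 : ∀ x, ∑ y, (tw (M := M) 1 ⊗ₖ (1 : Matrix (ZMod M) (ZMod M) ℝ)) x y = 1 := by
    rintro ⟨u, v⟩
    simp [Fintype.sum_prod_type, tw, one_apply]
  have r2 : ∀ x, ∑ y, ((1 : Matrix (ZMod M) (ZMod M) ℝ) ⊗ₖ tw (M := M) 1) x y = 1 := by
    rintro ⟨u, v⟩
    simp [Fintype.sum_prod_type, tw, one_apply]
  have k1 := mul_pc r1
  have k3 := mul_pc r2
  rw [one_smul] at k1 k3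
  have inv : ∀ {X : Matrix (Tor M) (Tor M) ℝ}, X * pc M = pc M → Xᵀ * X = 1 → pc M * X = pc M := by
    intro X h1 h2
    have h3 : Xᵀ * pc M = pc M := by
      conv_lhs => rw [← h1, ← mul_assoc, h2, one_mul]
    simpa [transpose_mul, pc_tr] using congrArg transpose h3
  have h1 := inv k1 (by
    rw [← kroneckerMap_transpose, transpose_one, ← mul_kronecker_mul, tr_mul_tw sign_one, mul_one,
      one_kronecker_one])
  have h3 := inv k3 (by
    rw [← kroneckerMap_transpose, transpose_one, ← mul_kronecker_mul, tr_mul_tw sign_one, mul_one,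
      one_kronecker_one])
  have h5 := det_blk sign_one sign_one pc_pc h1 h3 k1 k3 jz
  rw [gg_one, ← e] at h5
  have h6 : (2 * tc ^ 2) • lp2 (M := M) 1 1 + (sym (1 : ℝ) 1 1 1 + jz).det • pc M =
      (2 * tc ^ 2) • (lp2 (M := M) 1 1 + ((sym (1 : ℝ) 1 1 1 + jz).det / (2 * tc ^ 2)) • pc M) := by
    rw [smul_add, smul_smul, mul_div_cancel₀ _ hc]
  rw [h6, det_smul, det_add_pc lp2_pc] at h5
  have h7 : Fintype.card (Tor M) = M * M := by simp [ZMod.card]
  rw [← h7, ← h5]
  exact h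

/-- The coefficient of the zero modes is at most `C M` times the sector that is antiperiodic in
the first direction. -/
theorem kap_le_sec : ∃ C : ℝ, 1 ≤ C ∧ ∀ (M : ℕ) [NeZero M],
    |kap M| ≤ C * M * |Zw par0 (sec M (true, false)) 1| := by
  set c := |(sym (1 : ℝ) 1 1 1 + jz).det / (2 * tc ^ 2)| with hc
  have hc0 : 0 ≤ c := abs_nonneg _
  refine ⟨c + 1, by linarith, fun M _ => ?_⟩
  let b : ZMod M → ℝ := fun x => if x = ((M / 2 : ℕ) : ZMod M) then -1 else 1
  have hb : IsSign b := fun x => by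
    simp only [b]
    split_ifs <;> simp
  have h2 : ∏ y, b y = -1 := by simp [b]
  have e : sec M (true, false) = gg b 1 := by
    funext e
    simp [sec, gg, b]
  have h3 := lp2_zero hb h2
  have h4 : 0 < (2 * tc ^ 2) ^ (M * M) := by have := tc_pos; positivity
  refine abs_le_of_sq_le_sq' ?_ (by positivity) |> fun h => abs_le.2 h
  rw [mul_pow, mul_pow, sq_abs, Zw_sq, e, det_Dm_gg hb sign_one, kap_sq]
  have h5 : 0 ≤ (M : ℝ) ^ 2 * (lp2 b 1).det := (abs_nonneg _).trans h3
  calc _ ≤ (2 * tc ^ 2) ^ (M * M) * (c * |(lp2 (M := M) 1 1 + pc M).det|) := by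
        rw [hc, ← abs_mul]
        exact mul_le_mul_of_nonneg_left (le_abs_self _) h4.le
    _ ≤ (2 * tc ^ 2) ^ (M * M) * ((c + 1) ^ 2 * ((M : ℝ) ^ 2 * (lp2 b 1).det)) := by
        gcongr
        nlinarith
    _ = _ := by ring

end Vale.Agent.P144Z.H4
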