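import Vale.Agent.P144Z.H4.Kap
import Vale.Agent.P144Z.H3.Main

/-!
Block H4: the coefficient of the zero modes is not too large.
-/

namespace Vale.Agent.P144Z

open Finset Matrix Filter Topology MeasureTheory

/-- The coefficient of the zero modes is not too large. -/
theorem kap_le : ∃ C : ℝ, 1 ≤ C ∧ ∀ (M : ℕ) [NeZero M], 64 ≤ M →
    |kap M| ≤ C * M * (1 + Real.log M) * ∑ θ, Zw par0 (sec M θ) 1 := by
  obtain ⟨C, hC, h⟩ := H4.kap_le_sec
  refine ⟨C, hC, fun M _ hM => (h M).trans ?_⟩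
  have h1 := (free_sec (M := M) (by omega)).1
  have h2 : |Zw par0 (sec M (true, false)) 1| ≤ ∑ θ, Zw par0 (sec M θ) 1 := by
    rw [abs_of_nonneg (h1 _)]
    exact single_le_sum (f := fun θ => Zw par0 (sec M θ) 1) (fun θ _ => h1 θ) (mem_univ _)
  have h3 : 0 ≤ Real.log M := Real.log_natCast_nonneg M
  have h4 : 0 ≤ ∑ θ, Zw par0 (sec M θ) 1 := sum_nonneg fun θ _ => h1 θ
  calc _ ≤ C * M * ∑ θ, Zw par0 (sec M θ) 1 := by gcongr
    _ = C * M * 1 * ∑ θ, Zw par0 (sec M θ) 1 := by ring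
    _ ≤ _ := by gcongr; linarith

end Vale.Agent.P144Z
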