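import Vale.Agent.P144Z.I2.Cont

/-!
The square of a Gaussian Grassmann integral is a determinant.
-/

namespace Vale.Agent.P144Z.H4

open Finset Matrix Filter Topology I2

variable {S : Type} [Fintype S] [DecidableEq S]

/-- The scalar part of the Gaussian convolution. -/
noncomputable def ex (C : Matrix S S ℝ) : Ev S →ₗ[ℝ] ℝ :=
  (aug (S := S)).toLinearMap ∘ₗ gauss C ∘ₗ (Ev.val (S := S)).toLinearMap

theorem ex_apply (C : Matrix S S ℝ) (F : Ev S) : ex C F = aug (gauss C (Ev.val F)) := rfl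

/-- The Gaussian integral of the exponential of a quadratic form. -/
noncomputable def pf (C U : Matrix S S ℝ) : ℝ := ex C (NormedSpace.exp (qd U))

theorem pp_sum_left {ι : Type} (T : Finset ι) (a : ι → S → ℝ) (b : S → ℝ) :
    pp (∑ i ∈ T, a i) b = ∑ i ∈ T, pp (a i) b := by
  unfold pp psi
  rw [map_sum, sum_mul, map_sum]

theorem pp_sum_right {ι : Type} (T : Finset ι) (a : S → ℝ) (b : ι → S → ℝ) :
    pp a (∑ i ∈ T, b i) = ∑ i ∈ T, pp a (b i) := by
  unfold pp psi
  rw [map_sum, mul_sum, map_sum]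

theorem qd_vecMulVec (a b : S → ℝ) : qd (vecMulVec a b) = pp a b := by
  have ha : a = ∑ s, a s • (Pi.single s 1 : S → ℝ) := by
    ext t
    simp [Finset.sum_apply, Pi.single_apply]
  have hb : b = ∑ s, b s • (Pi.single s 1 : S → ℝ) := by
    ext t
    simp [Finset.sum_apply, Pi.single_apply]
  conv_rhs => rw [ha, hb, pp_sum_left]
  rw [qd_apply]
  refine sum_congr rfl fun s _ => ?_
  rw [pp_sum_right]
  refine sum_congr rfl fun t _ => ?_
  rw [pp_smul_smul, vecMulVec_apply]

theorem pf_add (C U : Matrix S S ℝ) (a b : S → ℝ) :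
    pf C (U + vecMulVec a b) = ex C (NormedSpace.exp (qd U) * (1 + pp a b)) := by
  unfold pf
  rw [map_add, exp_add', qd_vecMulVec, exp_sq_zero (pp_sq a b)]

theorem det_rank_two {C : Matrix S S ℝ} (hC : Cᵀ = -C) (a b : S → ℝ) :
    (1 - C * (vecMulVec a b - (vecMulVec a b)ᵀ)).det = (1 + a ⬝ᵥ C *ᵥ b) ^ 2 := by
  have hs : ∀ u v : S → ℝ, u ⬝ᵥ C *ᵥ v = -(v ⬝ᵥ C *ᵥ u) := by
    intro u v
    rw [dotProduct_mulVec, ← mulVec_transpose, hC, neg_mulVec, neg_dotProduct, dotProduct_comm]
  have e : vecMulVec a b - (vecMulVec a b)ᵀ =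
      (Matrix.of fun s (i : Fin 2) => ![a, b] i s) *
        Matrix.of fun (i : Fin 2) s => ![b, -a] i s := by
    ext s t
    simp [mul_apply, vecMulVec_apply, Fin.sum_univ_two]
    ring
  rw [e, ← Matrix.mul_assoc, det_one_sub_mul_comm, det_fin_two]
  have h : ∀ i j : Fin 2, ((Matrix.of fun (i : Fin 2) s => ![b, -a] i s) *
      (C * Matrix.of fun s (i : Fin 2) => ![a, b] i s)) i j =
      ![b, -a] i ⬝ᵥ C *ᵥ ![a, b] j := fun i j => rfl
  simp only [Matrix.sub_apply, h, one_apply_eq, ne_eq, zero_ne_one, not_false_eq_true,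
    one_apply_ne, one_ne_zero, cons_val_zero, cons_val_one, neg_dotProduct]
  have h1 := hs a a
  have h2 := hs b b
  have h3 := hs b a
  have h4 : a ⬝ᵥ C *ᵥ a = 0 := by linarith
  have h5 : b ⬝ᵥ C *ᵥ b = 0 := by linarith
  rw [h3, h4, h5]
  ring

theorem step_inv {C U : Matrix S S ℝ} (hC : Cᵀ = -C) (hU : (1 - C * (U - Uᵀ)).det ≠ 0)
    (h : pf C U ^ 2 = (1 - C * (U - Uᵀ)).det) (a b : S → ℝ) :
    pf C (U + vecMulVec a b) ^ 2 =
      (1 - C * (U + vecMulVec a b - (U + vecMulVec a b)ᵀ)).det := by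
  set B := U - Uᵀ with hB
  have hBt : Bᵀ = -B := by simp [hB]
  set R := (1 - C * B)⁻¹ with hR
  have hu : IsUnit (1 - C * B).det := isUnit_iff_ne_zero.2 hU
  have h1 : R * (1 - C * B) = 1 := nonsing_inv_mul _ hu
  have h2 : (1 - C * B) * R = 1 := mul_nonsing_inv _ hu
  have h3 : Rᵀ * (1 - B * C) = 1 := by
    have := congrArg transpose h2
    simpa [transpose_mul, transpose_sub, hC, hBt] using this
  have h4 : (R * C)ᵀ = -(R * C) := by
    have h5 : (1 - B * C) * Rᵀ = 1 := mul_eq_one_comm.1 h3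
    have h6 : C * (1 - B * C) = (1 - C * B) * C := by noncomm_ring
    rw [transpose_mul, hC, neg_mul]
    congr 1
    calc C * Rᵀ = R * (1 - C * B) * C * Rᵀ := by rw [h1, one_mul]
      _ = R * C * ((1 - B * C) * Rᵀ) := by
          rw [mul_assoc R, ← h6]
          simp only [mul_assoc]
      _ = R * C := by rw [h5, mul_one]
  have h7 : ∀ F : Ev S, ex C (NormedSpace.exp (qd U) * F) = ex (R * C) F * pf C U := by
    intro F
    have := fn_eq (0 : (S → ℝ) →ₗ[ℝ] (S → ℝ)) hC h4 (Ev.val_mem (NormedSpace.exp (qd U)))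
      (fun g => del_exp_qd g U) h1 rfl (fun _ => rfl) (Ev.val F)
    have h8 := congrArg aug this
    rw [map_mul aug, fn_apply, fn_apply, aug_map, aug_map, aug_map, mul_one,
      ← map_mul Ev.val] at h8
    exact h8
  have h8 : ex (R * C) (1 + pp a b) = 1 + a ⬝ᵥ (R * C) *ᵥ b := by
    rw [ex_apply, ← val_evG, map_add, evG_pp h4]
    have : evG (R * C) (1 : Ev S) = 1 := Ev.val_injective (by rw [val_evG, map_one, gauss_one])
    rw [this]
    simp [val_pp, psi, aug, ExteriorAlgebra.algebraMapInv]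
  have h9 : 1 - C * (U + vecMulVec a b - (U + vecMulVec a b)ᵀ) =
      (1 - C * B) * (1 - R * C * (vecMulVec a b - (vecMulVec a b)ᵀ)) := by
    rw [mul_sub (1 - C * B), mul_one, ← mul_assoc, ← mul_assoc, h2, one_mul, transpose_add, hB]
    noncomm_ring
  rw [pf_add, h7, h8, h9, det_mul, det_rank_two h4, mul_pow, h, mul_comm]

theorem step {C U : Matrix S S ℝ} (hC : Cᵀ = -C)
    (h : ∀ t : ℝ, pf C (t • U) ^ 2 = (1 - C * (t • U - (t • U)ᵀ)).det) (a b : S → ℝ) :
    pf C (U + vecMulVec a b) ^ 2 =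
      (1 - C * (U + vecMulVec a b - (U + vecMulVec a b)ᵀ)).det := by
  have hc1 : Continuous fun t : ℝ => pf C (t • U + vecMulVec a b) ^ 2 := by
    refine Continuous.pow ?_ 2
    let _ : NormedAlgebra ℚ (Ev S) := .restrictScalars ℚ ℝ _
    unfold pf
    refine (ex C).continuous_of_finiteDimensional.comp
      (NormedSpace.exp_continuous.comp ((qd (S := S)).continuous_of_finiteDimensional.comp ?_))
    fun_prop
  have hc2 : Continuous fun t : ℝ =>
      (1 - C * (t • U + vecMulVec a b - (t • U + vecMulVec a b)ᵀ)).det := by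
    refine Continuous.matrix_det ?_
    fun_prop
  have hfin : {t : ℝ | (1 - C * (t • U - (t • U)ᵀ)).det = 0}.Finite := by
    refine ((Polynomial.finite_setOfPred_isRoot (charpoly_monic (C * (U - Uᵀ))).ne_zero).image
      fun r => r⁻¹).subset fun t ht => ?_
    have ht0 : t ≠ 0 := by
      rintro rfl
      simp at ht
    refine ⟨t⁻¹, ?_, inv_inv t⟩
    have e : 1 - C * (t • U - (t • U)ᵀ) = t • (scalar S t⁻¹ - C * (U - Uᵀ)) := by
      rw [transpose_smul, ← smul_sub, Matrix.mul_smul, smul_sub]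
      congr 1
      ext i j
      by_cases hij : i = j
      · subst hij
        simp [ht0]
      · simp [hij]
    simp only [Set.mem_ofPred_eq] at ht ⊢
    rw [e, det_smul] at ht
    rw [Polynomial.IsRoot.def, eval_charpoly]
    exact (mul_eq_zero.1 ht).resolve_left (pow_ne_zero _ ht0)
  have hd : Dense {t : ℝ | (1 - C * (t • U - (t • U)ᵀ)).det = 0}ᶜ := hfin.countable.dense_compl ℝ
  have := congrFun (Continuous.ext_on hd hc1 hc2 fun t ht => step_inv hC ht (h t) a b) 1
  simpa using this

/-- The square of the Gaussian integral is the determinant. -/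
theorem pf_sq {C : Matrix S S ℝ} (hC : Cᵀ = -C) (U : Matrix S S ℝ) :
    pf C U ^ 2 = (1 - C * (U - Uᵀ)).det := by
  have key : ∀ T : Finset S, ∀ U : Matrix S S ℝ, (∀ s ∉ T, U s = 0) →
      pf C U ^ 2 = (1 - C * (U - Uᵀ)).det := by
    intro T
    induction T using Finset.induction_on with
    | empty =>
      intro U hU
      have : U = 0 := funext fun s => hU s (by simp)
      subst this
      simp [pf, ex_apply, gauss_one]
    | insert s T hs ih =>
      intro U hU
      have e : U = updateRow U s 0 + vecMulVec (Pi.single s 1) (U s) := by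
        ext i j
        by_cases hi : i = s
        · subst hi
          simp [vecMulVec_apply]
        · simp [vecMulVec_apply, hi]
      rw [e]
      refine step hC (fun t => ih _ fun i hi => ?_) _ _
      by_cases his : i = s
      · subst his
        ext j
        simp
      · ext j
        have := congrFun (hU i (by simp [his, hi])) j
        simp [updateRow_ne his, this]
  exact key univ U fun s hs => absurd (mem_univ s) hs

theorem det_sM (M : ℕ) [NeZero M] : (sM M).det = 1 := by
  have e : sM M = kroneckerMap (· * ·) (1 : Matrix (Tor M) (Tor M) ℝ) (Matrix.of sA) := by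
    ext s t
    simp [sM, kroneckerMap_apply, one_apply]
  have h : (Matrix.of sA).det = 1 := by
    have : Matrix.of sA = !![0, 1, 1, 1; -1, 0, 1, 1; -1, -1, 0, 1; -1, -1, -1, 0] := by
      ext a b
      fin_cases a <;> fin_cases b <;> simp [sA]
    rw [this]
    simp [det_succ_row_zero, Fin.sum_univ_succ, Fin.succAbove]
    norm_num
  rw [e, det_kronecker, h]
  simp

/-- The critical free functional of the exponential of a quadratic form of the fields. -/
theorem om_sq (g : Geo) (a b : Tor g.M × Fin 4 → ℝ) :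
    aug (Ev.val (g.Om (1 + pp (g.ex a) (g.ex b)))) ^ 2 =
      (Dm g.A + (vecMulVec a b - (vecMulVec a b)ᵀ)).det := by
  have e1 : aug (Ev.val (g.Om (1 + pp (g.ex a) (g.ex b)))) =
      pf (g.exM (gM g.M)) (g.exM (tc • hM g.A + vecMulVec a b)) := by
    have e : g.exM (tc • hM g.A + vecMulVec a b) =
        tc • g.exM (hM g.A) + vecMulVec (g.ex a) (g.ex b) := by
      ext s t
      rcases s with s | s <;> rcases t with t | t <;> simp [Geo.exM, Geo.ex, vecMulVec_apply]
    rw [e, pf_add, map_smul, ← sum_edge, ex_apply, ← val_evG]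
    unfold Geo.Om
    rw [val_noF, aug_map]
  rw [e1, pf_sq (exM_anti g (gM_anti g.M))]
  set U := tc • hM g.A + vecMulVec a b with hU
  have e2 : 1 - g.exM (gM g.M) * (g.exM U - (g.exM U)ᵀ) =
      fromBlocks (1 - gM g.M * (U - Uᵀ)) 0 0 1 := by
    unfold Geo.exM
    rw [← fromBlocks_one, fromBlocks_transpose, sub_eq_add_neg, sub_eq_add_neg, fromBlocks_neg,
      fromBlocks_add, fromBlocks_multiply, fromBlocks_neg, fromBlocks_add]
    simp [sub_eq_add_neg]
  have e3 : 1 - gM g.M * (U - Uᵀ) =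
      -gM g.M * (Dm g.A + (vecMulVec a b - (vecMulVec a b)ᵀ)) := by
    rw [Dm_eq, add_assoc, mul_add, neg_mul, gM_mul_sM, neg_neg, hU, transpose_add,
      transpose_smul, smul_sub, neg_mul, sub_eq_add_neg 1]
    congr 3
    abel
  have e4 : (-gM g.M).det = 1 := by
    have := congrArg det (show -gM g.M * sM g.M = 1 by rw [neg_mul, gM_mul_sM, neg_neg])
    rwa [det_mul, det_sM, mul_one, det_one] at this
  rw [e2, det_fromBlocks_zero₂₁, det_one, mul_one, e3, det_mul, e4, one_mul]

theorem om_one_sq (g : Geo) : aug (Ev.val (g.Om 1)) ^ 2 = (Dm g.A).det := by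
  have h := om_sq g 0 0
  have e : pp (g.ex 0) (g.ex 0) = 0 := by
    rw [ex_zero]
    simp [pp, psi]
  simpa [e] using h

end Vale.Agent.P144Z.H4
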