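import Vale.Agent.P144Z.H4.Cyc
import Vale.Agent.P144Z.H4.Pf

/-!
The determinant of the fermion operator is the determinant of the scalar Laplacian.
-/

namespace Vale.Agent.P144Z.H4

open Finset Matrix Kronecker

theorem tc_sq : tc ^ 2 = 1 - 2 * tc := by
  have := Real.sq_sqrt (show (0 : ℝ) ≤ 2 by norm_num)
  unfold tc
  linarith

/-- The symbol of the fermion operator. -/
noncomputable def sym {R : Type} [Ring R] [Algebra ℝ R] (x y x' y' : R) :
    Matrix (Fin 4) (Fin 4) R :=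
  !![0, 1, 1 + tc • x, 1; -1, 0, 1, 1 + tc • x'; -1 - tc • y, -1, 0, 1; -1, -1 - tc • y', -1, 0]

theorem sym_map {R R' : Type} [Ring R] [Algebra ℝ R] [Ring R'] [Algebra ℝ R'] (f : R →ₐ[ℝ] R')
    (x y x' y' p : R) (j : Matrix (Fin 4) (Fin 4) ℝ) :
    (sym x y x' y' + j.map fun c => c • p).map (f : R →+* R') =
      sym (f x) (f y) (f x') (f y') + j.map fun c => c • f p := by
  ext a b
  fin_cases a <;> fin_cases b <;> simp [sym]

theorem sym_apply {R : Type} [Ring R] [Algebra ℝ R] (x y x' y' : R) (c d : Fin 4) :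
    sym x y x' y' c d = sA c d • (1 : R) + tc • ((if c = 0 ∧ d = 2 then x else 0) +
      (if c = 1 ∧ d = 3 then x' else 0) - ((if d = 0 ∧ c = 2 then y else 0) +
      (if d = 1 ∧ c = 3 then y' else 0))) := by
  fin_cases c <;> fin_cases d <;> simp [sym, sA, sub_eq_add_neg]

section Sym

variable {R : Type} [CommRing R] [Algebra ℝ R]

theorem det_sym {x y x' y' : R} (h : x * y = 1) (h' : x' * y' = 1) :
    (sym x y x' y').det = (2 * tc ^ 2) • (4 - x - y - x' - y') := by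
  set t : R := algebraMap ℝ R tc with ht
  have h1 : t ^ 2 = 1 - 2 * t := by
    rw [ht, ← map_pow, tc_sq, map_sub, map_mul, map_one, map_ofNat]
  have e : (sym x y x' y').det = 4 + ((1 + t * x) * (1 + t * y)) * ((1 + t * x') * (1 + t * y')) -
      (2 + t * (x + y)) * (2 + t * (x' + y')) := by
    simp [sym, det_succ_row_zero, Fin.sum_univ_succ, Fin.succAbove, Algebra.smul_def, ← ht]
    ring
  have e1 : (1 + t * x) * (1 + t * y) = 1 + t ^ 2 + t * (x + y) := by
    linear_combination t ^ 2 * h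
  have e2 : (1 + t * x') * (1 + t * y') = 1 + t ^ 2 + t * (x' + y') := by
    linear_combination t ^ 2 * h'
  rw [e, e1, e2, Algebra.smul_def, map_mul, map_pow, map_ofNat, ← ht]
  linear_combination (t * (x + y + x' + y') + t ^ 2 - 2 * t - 1) * h1

omit [Algebra ℝ R] in
theorem det_idem {p : R} (hp : p * p = p) {X Y : Matrix (Fin 4) (Fin 4) R} (h : p • X = p • Y) :
    p * X.det = p * Y.det := by
  have h4 : p ^ 4 = p := by
    rw [show p ^ 4 = p * p * (p * p) by ring, hp, hp]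
  have := congrArg det h
  rwa [det_smul, det_smul, Fintype.card_fin, h4] at this

theorem det_sym_add {x y x' y' p : R} (h : x * y = 1) (h' : x' * y' = 1) (hp : p * p = p)
    (h1 : p * x = p) (h2 : p * y = p) (h3 : p * x' = p) (h4 : p * y' = p)
    (j : Matrix (Fin 4) (Fin 4) ℝ) :
    (sym x y x' y' + j.map fun c => c • p).det =
      (2 * tc ^ 2) • (4 - x - y - x' - y') + (sym (1 : ℝ) 1 1 1 + j).det • p := by
  have a1 : p * (sym x y x' y' + j.map fun c => c • p).det =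
      p * ((algebraMap ℝ R).mapMatrix (sym (1 : ℝ) 1 1 1 + j)).det := by
    refine det_idem hp ?_
    ext a b
    have e : p * sym x y x' y' a b = p * algebraMap ℝ R (sym (1 : ℝ) 1 1 1 a b) := by
      fin_cases a <;> fin_cases b <;>
        simp [sym, mul_add, mul_sub, h1, h2, h3, h4, Algebra.algebraMap_eq_smul_one, add_smul,
          sub_smul]
    simp only [Matrix.smul_apply, Matrix.add_apply, map_apply, smul_eq_mul, mul_add,
      RingHom.mapMatrix_apply, map_add, e, mul_smul_comm, hp]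
    rw [Algebra.algebraMap_eq_smul_one (j a b), mul_smul_comm, mul_one]
  have a2 : (1 - p) * (sym x y x' y' + j.map fun c => c • p).det =
      (1 - p) * (sym x y x' y').det := by
    refine det_idem (by linear_combination hp) ?_
    ext a b
    simp only [Matrix.smul_apply, Matrix.add_apply, map_apply, smul_eq_mul, mul_add,
      mul_smul_comm, sub_mul, one_mul, hp, sub_self, smul_zero, add_zero]
  rw [← RingHom.map_det, Algebra.algebraMap_eq_smul_one, mul_smul_comm, mul_one] at a1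
  rw [det_sym h h', mul_smul_comm] at a2
  have a3 : (1 - p) * (4 - x - y - x' - y') = 4 - x - y - x' - y' := by
    linear_combination h1 + h2 + h3 + h4
  rw [a3] at a2
  linear_combination a1 + a2

end Sym

open scoped IsMulCommutative in
theorem det_comm {n : Type} [Fintype n] [DecidableEq n] {x y x' y' P : Matrix n n ℝ}
    (exy : x * y = 1) (exy' : x' * y' = 1) (c2 : x * x' = x' * x) (hPP : P * P = P)
    (h1 : P * x = P) (h3 : P * x' = P) (k1 : x * P = P) (k3 : x' * P = P)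
    (j : Matrix (Fin 4) (Fin 4) ℝ) :
    (Matrix.comp _ _ _ _ _ (sym x y x' y' + j.map fun c => c • P)).det =
      ((2 * tc ^ 2) • (4 - x - y - x' - y') + (sym (1 : ℝ) 1 1 1 + j).det • P).det := by
  have eyx : y * x = 1 := mul_eq_one_comm.1 exy
  have eyx' : y' * x' = 1 := mul_eq_one_comm.1 exy'
  have h2 : P * y = P := by
    conv_lhs => rw [← h1, mul_assoc, exy, mul_one]
  have h4 : P * y' = P := by
    conv_lhs => rw [← h3, mul_assoc, exy', mul_one]
  have k2 : y * P = P := by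
    conv_lhs => rw [← k1, ← mul_assoc, eyx, one_mul]
  have k4 : y' * P = P := by
    conv_lhs => rw [← k3, ← mul_assoc, eyx', one_mul]
  have inv : ∀ {u v w : Matrix n n ℝ}, u * v = 1 → u * w = w * u → v * w = w * v := by
    intro u v w h h'
    calc v * w = v * (w * u) * v := by rw [mul_assoc, mul_assoc, h, mul_one]
      _ = w * v := by rw [← h', ← mul_assoc, mul_eq_one_comm.1 h, one_mul]
  have c3 : x * y' = y' * x := (inv exy' c2.symm).symm
  have c4 : y * x' = x' * y := inv exy c2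
  have c5 : y * y' = y' * y := inv exy c3
  have hc : IsMulCommutative (Algebra.adjoin ℝ ({x, y, x', y', P} : Set (Matrix n n ℝ))) := by
    refine Algebra.isMulCommutative_adjoin ℝ ?_
    simp only [Set.mem_insert_iff, Set.mem_singleton_iff, forall_eq_or_imp, forall_eq]
    simp only [exy, eyx, exy', eyx', h1, h2, h3, h4, k1, k2, k3, k4, c2, c3, c4, c5, and_self]
  let S := Algebra.adjoin ℝ ({x, y, x', y', P} : Set (Matrix n n ℝ))
  let X : S := ⟨x, Algebra.subset_adjoin (by simp)⟩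
  let Y : S := ⟨y, Algebra.subset_adjoin (by simp)⟩
  let X' : S := ⟨x', Algebra.subset_adjoin (by simp)⟩
  let Y' : S := ⟨y', Algebra.subset_adjoin (by simp)⟩
  let p : S := ⟨P, Algebra.subset_adjoin (by simp)⟩
  have key := Matrix.det_det (sym X Y X' Y' + j.map fun c => c • p) (S.val : S →+* Matrix n n ℝ)
  rw [det_sym_add (Subtype.ext exy) (Subtype.ext exy') (Subtype.ext hPP) (Subtype.ext h1)
    (Subtype.ext h2) (Subtype.ext h3) (Subtype.ext h4), sym_map] at key
  exact key.symm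

variable {M : ℕ} [NeZero M]

/-- The gauge field with the signs `a` and `b` in the two directions. -/
def gg (a b : ZMod M → ℝ) : Gauge M := fun e => if e.2 = 0 then a e.1.1 else b e.1.2

theorem Dm_gg (a b : ZMod M → ℝ) (c d : Fin 4) (u w : Tor M) :
    Dm (gg a b) (u, c) (w, d) = sym (tw a ⊗ₖ (1 : Matrix (ZMod M) (ZMod M) ℝ))
      ((tw a)ᵀ ⊗ₖ (1 : Matrix (ZMod M) (ZMod M) ℝ)) ((1 : Matrix (ZMod M) (ZMod M) ℝ) ⊗ₖ tw b)
      ((1 : Matrix (ZMod M) (ZMod M) ℝ) ⊗ₖ (tw b)ᵀ) c d u w := by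
  have k1 : ∀ u w : Tor M, (tw a ⊗ₖ (1 : Matrix (ZMod M) (ZMod M) ℝ)) u w =
      if w = u + uv M 0 then gg a b (u, 0) else 0 := by
    rintro ⟨u, v⟩ ⟨u', v'⟩
    simp only [kroneckerMap_apply, tw, of_apply, one_apply, uv, gg, if_true, Prod.mk_add_mk,
      add_zero, Prod.mk.injEq, eq_comm (a := v)]
    by_cases e : u' = u + 1 <;> by_cases e' : v' = v <;> simp [e, e']
  have k2 : ∀ u w : Tor M, ((1 : Matrix (ZMod M) (ZMod M) ℝ) ⊗ₖ tw b) u w =
      if w = u + uv M 1 then gg a b (u, 1) else 0 := by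
    rintro ⟨u, v⟩ ⟨u', v'⟩
    simp only [kroneckerMap_apply, tw, of_apply, one_apply, uv, gg, one_ne_zero, if_false,
      Prod.mk_add_mk, add_zero, Prod.mk.injEq, eq_comm (a := u)]
    by_cases e : u' = u <;> by_cases e' : v' = v + 1 <;> simp [e, e']
  have k3 : (tw a)ᵀ ⊗ₖ (1 : Matrix (ZMod M) (ZMod M) ℝ) =
      (tw a ⊗ₖ (1 : Matrix (ZMod M) (ZMod M) ℝ))ᵀ := by
    rw [← kroneckerMap_transpose, transpose_one]
  have k4 : (1 : Matrix (ZMod M) (ZMod M) ℝ) ⊗ₖ (tw b)ᵀ =
      ((1 : Matrix (ZMod M) (ZMod M) ℝ) ⊗ₖ tw b)ᵀ := by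
    rw [← kroneckerMap_transpose, transpose_one]
  rw [k3, k4]
  generalize tw a ⊗ₖ (1 : Matrix (ZMod M) (ZMod M) ℝ) = x at k1
  generalize (1 : Matrix (ZMod M) (ZMod M) ℝ) ⊗ₖ tw b = x' at k2
  have k5 : ∀ (p : Prop) [Decidable p] (X : Matrix (Tor M) (Tor M) ℝ),
      (if p then X else 0) u w = if p then X u w else 0 := by
    intro p _ X
    split_ifs <;> rfl
  rw [sym_apply]
  simp only [Dm, hop, of_apply, Matrix.add_apply, Matrix.sub_apply, Matrix.smul_apply, k5,
    transpose_apply, k1, k2, one_apply, smul_eq_mul, mul_ite, mul_one, mul_zero, ite_and]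

theorem det_blk {a b : ZMod M → ℝ} (ha : IsSign a) (hb : IsSign b)
    {P : Matrix (Tor M) (Tor M) ℝ} (hPP : P * P = P)
    (h1 : P * tw a ⊗ₖ (1 : Matrix (ZMod M) (ZMod M) ℝ) = P)
    (h3 : P * (1 : Matrix (ZMod M) (ZMod M) ℝ) ⊗ₖ tw b = P)
    (k1 : tw a ⊗ₖ (1 : Matrix (ZMod M) (ZMod M) ℝ) * P = P)
    (k3 : (1 : Matrix (ZMod M) (ZMod M) ℝ) ⊗ₖ tw b * P = P) (j : Matrix (Fin 4) (Fin 4) ℝ) :
    (Dm (gg a b) + P ⊗ₖ j).det =
      ((2 * tc ^ 2) • lp2 a b + (sym (1 : ℝ) 1 1 1 + j).det • P).det := by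
  have key := det_comm (y := (tw a)ᵀ ⊗ₖ (1 : Matrix (ZMod M) (ZMod M) ℝ))
    (y' := (1 : Matrix (ZMod M) (ZMod M) ℝ) ⊗ₖ (tw b)ᵀ)
    (by rw [← mul_kronecker_mul, tw_mul_tr ha, mul_one, one_kronecker_one])
    (by rw [← mul_kronecker_mul, tw_mul_tr hb, mul_one, one_kronecker_one])
    (by simp only [← mul_kronecker_mul, mul_one, one_mul]) hPP h1 h3 k1 k3 j
  have e : lp2 a b = 4 - tw a ⊗ₖ (1 : Matrix (ZMod M) (ZMod M) ℝ) -
      (tw a)ᵀ ⊗ₖ (1 : Matrix (ZMod M) (ZMod M) ℝ) - (1 : Matrix (ZMod M) (ZMod M) ℝ) ⊗ₖ tw b -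
      (1 : Matrix (ZMod M) (ZMod M) ℝ) ⊗ₖ (tw b)ᵀ := by
    unfold lp2
    rw [lp_eq ha, lp_eq hb]
    ext ⟨u, v⟩ ⟨u', v'⟩
    simp only [Matrix.add_apply, Matrix.sub_apply, kroneckerMap_apply,
      one_apply, ofNat_apply, Prod.mk.injEq]
    by_cases e : u = u' <;> by_cases e' : v = v' <;> simp [e, e']
    ring
  rw [e, ← key, ← det_submatrix_equiv_self (Equiv.prodComm (Fin 4) (Tor M))]
  congr 1
  ext ⟨c, u⟩ ⟨d, w⟩
  simp only [submatrix_apply, Equiv.prodComm_apply, Prod.swap_prod_mk, Matrix.add_apply,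
    comp_apply, map_apply, kroneckerMap_apply, Matrix.smul_apply, smul_eq_mul, Dm_gg]
  ring

end Vale.Agent.P144Z.H4
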