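import Vale.Agent.P144Z.C.Alg

/-!
Determinants of the one-dimensional periodic and antiperiodic Laplacians and of their sums.
-/

namespace Vale.Agent.P144Z.H4

open Finset Matrix Polynomial Filter Topology

variable {M : ℕ} [NeZero M]

/-- The cyclic shift with weights. -/
def tw (a : ZMod M → ℝ) : Matrix (ZMod M) (ZMod M) ℝ :=
  Matrix.of fun x y => if y = x + 1 then a x else 0

theorem tw_pow (a : ZMod M → ℝ) (k : ℕ) (x y : ZMod M) :
    (tw a ^ k) x y = if y = x + k then ∏ m ∈ range k, a (x + m) else 0 := by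
  induction k generalizing y with
  | zero => simp [one_apply, eq_comm]
  | succ k ih =>
    rw [pow_succ, mul_apply, sum_eq_single (x + k)]
    · rw [ih, if_pos rfl, prod_range_succ]
      simp only [tw, of_apply, Nat.cast_add, Nat.cast_one, add_assoc]
      split_ifs <;> simp
    · intro z _ hz
      rw [ih, if_neg hz, zero_mul]
    · simp

theorem prod_shift (a : ZMod M → ℝ) (x : ZMod M) : ∏ m ∈ range M, a (x + m) = ∏ y, a y := by
  rw [← Equiv.prod_comp (Equiv.addLeft x) a]
  refine prod_nbij' (fun m : ℕ => (m : ZMod M)) (fun y => y.val) (fun _ _ => mem_univ _)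
    (fun y _ => mem_range.2 (ZMod.val_lt y)) (fun m hm => ZMod.val_cast_of_lt (mem_range.1 hm))
    (fun y _ => ZMod.natCast_zmod_val y) fun _ _ => rfl

theorem charpoly_tw {a : ZMod M → ℝ} (ha : IsSign a) :
    (tw a).charpoly = X ^ M - Polynomial.C (∏ y, a y) := by
  have hM : 0 < M := Nat.pos_of_ne_zero (NeZero.ne M)
  set p := (tw a).charpoly - (X ^ M - Polynomial.C (∏ y, a y)) with hp
  have h1 : aeval (tw a) p = 0 := by
    rw [hp, map_sub, aeval_self_charpoly, map_sub, map_pow, aeval_X, aeval_C, zero_sub,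
      neg_eq_zero, sub_eq_zero]
    ext x y
    rw [tw_pow, prod_shift, algebraMap_matrix_apply]
    simp [eq_comm]
  have h2 : p.degree < M := by
    have d1 : (tw a).charpoly.degree = M := by
      rw [charpoly_degree_eq_dim, ZMod.card]
    have d2 : (X ^ M - Polynomial.C (∏ y, a y) : ℝ[X]).degree = M := degree_X_pow_sub_C hM _
    rw [← d1]
    refine degree_sub_lt_left (d1.trans d2.symm) (charpoly_monic _).ne_zero ?_
    rw [(charpoly_monic _).leadingCoeff, (monic_X_pow_sub_C _ hM.ne').leadingCoeff]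
  rw [← sub_eq_zero, ← hp]
  by_contra hne
  have h3 : p.natDegree < M := (natDegree_lt_iff_degree_lt hne).2 h2
  apply hne
  ext k
  rw [coeff_zero]
  rcases lt_or_ge k M with hk | hk
  · have h4 := congrFun (congrFun h1 0) (k : ZMod M)
    rw [aeval_eq_sum_range' h3, Matrix.sum_apply, sum_eq_single k] at h4
    · rw [Matrix.smul_apply, tw_pow, if_pos (zero_add _).symm, smul_eq_mul,
        Matrix.zero_apply] at h4
      refine (mul_eq_zero.1 h4).resolve_right (prod_ne_zero_iff.2 fun m _ => ?_)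
      rcases ha (0 + m) with h | h <;> rw [h] <;> norm_num
    · intro j hj hjk
      rw [Matrix.smul_apply, tw_pow, if_neg, smul_zero]
      rw [zero_add]
      intro e
      apply hjk
      have := congrArg ZMod.val e
      rw [ZMod.val_cast_of_lt hk, ZMod.val_cast_of_lt (mem_range.1 hj)] at this
      exact this.symm
    · intro h
      exact absurd (mem_range.2 hk) h
  · exact coeff_eq_zero_of_natDegree_lt (h3.trans_le hk)

theorem tw_mul_tr {a : ZMod M → ℝ} (ha : IsSign a) : tw a * (tw a)ᵀ = 1 := by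
  ext x y
  rw [mul_apply, sum_eq_single (x + 1)]
  · simp only [tw, transpose_apply, of_apply, if_true, add_left_inj, one_apply]
    split_ifs with h
    · subst h
      rcases ha x with h | h <;> simp [h]
    · simp
  · intro z _ hz
    simp [tw, hz]
  · simp

theorem tr_mul_tw {a : ZMod M → ℝ} (ha : IsSign a) : (tw a)ᵀ * tw a = 1 :=
  mul_eq_one_comm.1 (tw_mul_tr ha)

/-- The one-dimensional Laplacian. -/
def lp (a : ZMod M → ℝ) : Matrix (ZMod M) (ZMod M) ℝ := (1 - tw a)ᵀ * (1 - tw a)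

theorem lp_eq {a : ZMod M → ℝ} (ha : IsSign a) : lp a = 2 - tw a - (tw a)ᵀ := by
  unfold lp
  rw [transpose_sub, transpose_one, sub_mul, mul_sub, mul_sub, tr_mul_tw ha, ← one_add_one_eq_two]
  simp only [mul_one, one_mul]
  abel

theorem det_lp {a : ZMod M → ℝ} (ha : IsSign a) {z v : ℝ} (h : z ^ 2 + 1 = z * (2 + v)) :
    z ^ M * (lp a + v • 1).det = (z ^ M - ∏ y, a y) ^ 2 := by
  have h1 : (scalar (ZMod M) z - tw a).det = z ^ M - ∏ y, a y := by
    rw [← eval_charpoly, charpoly_tw ha, eval_sub, eval_pow, eval_X, eval_C]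
  have h2 : (scalar (ZMod M) z - tw a) * (scalar (ZMod M) z - tw a)ᵀ = z • (lp a + v • 1) := by
    have e : scalar (ZMod M) z = z • (1 : Matrix (ZMod M) (ZMod M) ℝ) := by
      rw [scalar_apply, smul_one_eq_diagonal]
    rw [e, lp_eq ha, transpose_sub, transpose_smul, transpose_one, sub_mul, mul_sub, mul_sub,
      tw_mul_tr ha, ← one_add_one_eq_two]
    simp only [smul_mul_assoc, mul_smul_comm, one_mul, mul_one, smul_smul]
    have : (z * z) • (1 : Matrix (ZMod M) (ZMod M) ℝ) = (z * (2 + v) - 1) • 1 := by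
      rw [← h]
      congr 1
      ring
    rw [this]
    module
  have h3 := congrArg det h2
  rw [det_mul, det_transpose, h1, det_smul, ZMod.card] at h3
  rw [← h3, sq]

theorem exists_z {v : ℝ} (hv : 0 ≤ v) : ∃ z : ℝ, 0 < z ∧ z ≤ 1 ∧ z ^ 2 + 1 = z * (2 + v) := by
  have hc : ContinuousOn (fun z : ℝ => z * (2 + v) - (z ^ 2 + 1)) (Set.Icc 0 1) := by fun_prop
  obtain ⟨z, hz, e⟩ := intermediate_value_Icc zero_le_one hc
    (show (0 : ℝ) ∈ Set.Icc _ _ from ⟨by norm_num, by linarith⟩)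
  simp only at e
  refine ⟨z, hz.1.lt_of_ne ?_, hz.2, by linarith⟩
  rintro rfl
  norm_num at e

/-- Comparison of the periodic and of the antiperiodic determinants. -/
theorem det_cmp {a b : ZMod M → ℝ} (ha : IsSign a) (hb : IsSign b) (h1 : ∏ y, a y = 1)
    (h2 : ∏ y, b y = -1) {v : ℝ} (hv : 0 ≤ v) :
    0 ≤ (lp a + v • 1).det ∧ (lp a + v • 1).det ≤ (lp b + v • 1).det ∧
      (lp a + v • 1).det ≤ M ^ 2 * v * (lp b + v • 1).det := by
  obtain ⟨z, hz0, hz1, hz⟩ := exists_z hv
  have e1 := det_lp ha hz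
  have e2 := det_lp hb hz
  rw [h1] at e1
  rw [h2] at e2
  have hp : 0 < z ^ M := pow_pos hz0 M
  have hp1 : z ^ M ≤ 1 := pow_le_one₀ hz0.le hz1
  refine ⟨?_, ?_, ?_⟩
  · exact nonneg_of_mul_nonneg_right (by rw [e1]; positivity) hp
  · refine le_of_mul_le_mul_left ?_ hp
    rw [e1, e2]
    nlinarith
  · refine le_of_mul_le_mul_left ?_ hp
    rw [mul_left_comm, e1, e2]
    have h3 := one_add_mul_sub_le_pow (a := z) (by linarith) M
    have h4 : (z ^ M - 1) ^ 2 ≤ (M * (1 - z)) ^ 2 := by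
      rw [← neg_sq]
      exact pow_le_pow_left₀ (by linarith) (by linarith) 2
    have h5 : (1 - z) ^ 2 ≤ v := by nlinarith
    have h6 : 1 ≤ (z ^ M - -1) ^ 2 := by nlinarith
    calc (z ^ M - 1) ^ 2 ≤ M ^ 2 * (1 - z) ^ 2 := by rw [← mul_pow]; exact h4
      _ ≤ M ^ 2 * v := by gcongr
      _ ≤ M ^ 2 * v * (z ^ M - -1) ^ 2 := le_mul_of_one_le_right (by positivity) h6

section Kron

variable {α β : Type} [Fintype α] [DecidableEq α] [Fintype β] [DecidableEq β]

open Kronecker

theorem det_kron (A : Matrix α α ℝ) {B : Matrix β β ℝ} (hB : B.IsHermitian) (u : ℝ) :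
    (A ⊗ₖ (1 : Matrix β β ℝ) + (1 : Matrix α α ℝ) ⊗ₖ B + u • 1).det =
      ∏ j, (A + (hB.eigenvalues j + u) • 1).det := by
  set U : Matrix β β ℝ := (hB.eigenvectorUnitary : Matrix β β ℝ) with hU
  have h1 : U * Star.star U = 1 := Unitary.coe_mul_star_self _
  have h2 : B = U * diagonal hB.eigenvalues * Star.star U := by
    have := hB.spectral_theorem
    rw [Unitary.conjStarAlgAut_apply] at this
    simpa using this
  have h3 : A ⊗ₖ (1 : Matrix β β ℝ) + (1 : Matrix α α ℝ) ⊗ₖ B + u • 1 =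
      (1 : Matrix α α ℝ) ⊗ₖ U * blockDiagonal (fun j => A + (hB.eigenvalues j + u) • 1) *
        (1 : Matrix α α ℝ) ⊗ₖ Star.star U := by
    have e : blockDiagonal (fun j => A + (hB.eigenvalues j + u) • (1 : Matrix α α ℝ)) =
        A ⊗ₖ (1 : Matrix β β ℝ) + (1 : Matrix α α ℝ) ⊗ₖ diagonal hB.eigenvalues +
          u • ((1 : Matrix α α ℝ) ⊗ₖ (1 : Matrix β β ℝ)) := by
      ext ⟨i, j⟩ ⟨i', j'⟩
      simp only [blockDiagonal_apply, Matrix.add_apply, Matrix.smul_apply, kroneckerMap_apply,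
        one_apply, diagonal_apply, smul_eq_mul]
      split_ifs <;> simp
      ring
    rw [e]
    simp only [mul_add, add_mul, Matrix.mul_smul, Matrix.smul_mul, ← mul_kronecker_mul, mul_one,
      one_mul, h1, ← h2, one_kronecker_one]
  have h4 : ((1 : Matrix α α ℝ) ⊗ₖ U).det * ((1 : Matrix α α ℝ) ⊗ₖ Star.star U).det = 1 := by
    rw [← det_mul, ← mul_kronecker_mul, mul_one, h1, one_kronecker_one, det_one]
  rw [h3, det_mul, det_mul, det_blockDiagonal, mul_right_comm, h4, one_mul]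

end Kron

open Kronecker in
/-- The two-dimensional Laplacian. -/
def lp2 (a b : ZMod M → ℝ) : Matrix (Tor M) (Tor M) ℝ :=
  lp a ⊗ₖ (1 : Matrix (ZMod M) (ZMod M) ℝ) + (1 : Matrix (ZMod M) (ZMod M) ℝ) ⊗ₖ lp b

omit [NeZero M] in
theorem sign_one : IsSign (1 : ZMod M → ℝ) := fun _ => Or.inl rfl

theorem lp2_cmp {b : ZMod M → ℝ} (hb : IsSign b) (h2 : ∏ y, b y = -1) {u : ℝ} (hu : 0 ≤ u) :
    0 ≤ (lp2 (M := M) 1 1 + u • 1).det ∧
      (lp2 (M := M) 1 1 + u • 1).det ≤ M ^ 2 * u * (lp2 b 1 + u • 1).det := by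
  have hH : (lp (M := M) 1).IsHermitian := C.herm _
  have hP : (lp (M := M) 1).PosSemidef := by
    have := posSemidef_conjTranspose_mul_self (1 - tw (M := M) 1)
    rwa [conjTranspose_eq_transpose_of_trivial] at this
  have hn : ∀ j, 0 ≤ hH.eigenvalues j := hP.eigenvalues_nonneg
  obtain ⟨j, hj⟩ : ∃ j, hH.eigenvalues j = 0 := by
    have h := (det_cmp sign_one hb (by simp) h2 le_rfl)
    have h0 : (lp (M := M) 1).det = 0 := by
      simp only [zero_smul, add_zero, mul_zero, zero_mul] at h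
      exact le_antisymm h.2.2 h.1
    rw [hH.det_eq_prod_eigenvalues] at h0
    obtain ⟨j, -, hj⟩ := prod_eq_zero_iff.1 h0
    exact ⟨j, by simpa using hj⟩
  unfold lp2
  have hc := fun i => det_cmp sign_one hb (by simp) h2 (add_nonneg (hn i) hu)
  rw [det_kron _ hH, det_kron _ hH]
  refine ⟨prod_nonneg fun i _ => (hc i).1, ?_⟩
  rw [← mul_prod_erase _ _ (mem_univ j), ← mul_prod_erase _ _ (mem_univ j), ← mul_assoc, hj,
    zero_add]
  have h0 := det_cmp sign_one hb (by simp) h2 hu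
  refine mul_le_mul h0.2.2 (prod_le_prod (fun i _ => (hc i).1) fun i _ => (hc i).2.1)
    (prod_nonneg fun i _ => (hc i).1) (h0.1.trans h0.2.2)

/-- The projection on the constants. -/
noncomputable def pc (M : ℕ) : Matrix (Tor M) (Tor M) ℝ :=
  vecMulVec (fun _ => (M : ℝ)⁻¹) fun _ => (M : ℝ)⁻¹

theorem mul_pc {X : Matrix (Tor M) (Tor M) ℝ} {c : ℝ} (h : ∀ x, ∑ y, X x y = c) :
    X * pc M = c • pc M := by
  ext x y
  simp [pc, mul_apply, vecMulVec_apply, ← sum_mul, h]

omit [NeZero M] in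
theorem pc_tr : (pc M)ᵀ = pc M := rfl

theorem pc_pc : pc M * pc M = pc M := by
  rw [mul_pc (c := 1), one_smul]
  intro x
  have : (M : ℝ) ≠ 0 := Nat.cast_ne_zero.2 (NeZero.ne M)
  simp [pc, vecMulVec_apply, ZMod.card]
  field_simp

theorem det_pc (a : ℝ) : (1 + (a - 1) • pc M).det = a := by
  have : (M : ℝ) ≠ 0 := Nat.cast_ne_zero.2 (NeZero.ne M)
  rw [pc, ← smul_vecMulVec, vecMulVec_eq Unit, det_one_add_replicateCol_mul_replicateRow]
  simp [dotProduct, ZMod.card]
  field_simp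
  ring

theorem det_add_pc {G : Matrix (Tor M) (Tor M) ℝ} (hG : G * pc M = 0) (a : ℝ) :
    (G + a • pc M).det = a * (G + pc M).det := by
  have : G + a • pc M = (G + pc M) * (1 + (a - 1) • pc M) := by
    simp only [mul_add, add_mul, mul_one, Matrix.mul_smul, hG, pc_pc]
    module
  rw [this, det_mul, det_pc, mul_comm]

theorem lp2_pc : lp2 (M := M) 1 1 * pc M = 0 := by
  rw [mul_pc (c := 0), zero_smul]
  rintro ⟨x, y⟩
  have h : ∀ x : ZMod M, ∑ y, lp (M := M) 1 x y = 0 := by
    intro x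
    have h1 : ∑ y, tw (M := M) 1 y x = 1 := by
      rw [sum_eq_single (x - 1)]
      · simp [tw]
      · intro z _ hz
        have : x ≠ z + 1 := fun e => hz (by rw [e]; simp)
        simp [tw, this]
      · simp
    have h2 : ∑ y, tw (M := M) 1 x y = 1 := by simp [tw]
    have h3 : ∑ y, (2 : Matrix (ZMod M) (ZMod M) ℝ) x y = 2 := by
      simp [ofNat_apply]
    simp only [lp_eq sign_one, Matrix.sub_apply, transpose_apply, sum_sub_distrib, h1, h2, h3]
    norm_num
  simp [lp2, Fintype.sum_prod_type, one_apply, sum_add_distrib, h]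

/-- The determinant without the zero mode is at most `M²` times the antiperiodic one. -/
theorem lp2_zero {b : ZMod M → ℝ} (hb : IsSign b) (h2 : ∏ y, b y = -1) :
    |(lp2 (M := M) 1 1 + pc M).det| ≤ M ^ 2 * (lp2 b 1).det := by
  have hc1 : Continuous fun u : ℝ => |(lp2 (M := M) 1 1 + u • (1 - pc M) + pc M).det| :=
    (Continuous.matrix_det (by fun_prop)).abs
  have hc2 : Continuous fun u : ℝ => (M : ℝ) ^ 2 * (lp2 b 1 + u • 1).det :=
    continuous_const.mul (Continuous.matrix_det (by fun_prop))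
  have h := (isClosed_le hc1 hc2).closure_subset_iff.2 (show Set.Ioi (0 : ℝ) ⊆ _ from ?_)
  · rw [closure_Ioi] at h
    simpa using h (Set.self_mem_Ici)
  · intro u hu
    have hu' : 0 < u := hu
    have h1 := lp2_cmp hb h2 hu'.le
    have e : lp2 (M := M) 1 1 + u • 1 = lp2 1 1 + u • (1 - pc M) + u • pc M := by module
    rw [e, det_add_pc (by simp [add_mul, sub_mul, lp2_pc, pc_pc])] at h1
    simp only [Set.mem_ofPred_eq]
    rw [abs_of_nonneg (nonneg_of_mul_nonneg_right h1.1 hu')]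
    refine le_of_mul_le_mul_left ?_ hu'
    linarith [h1.2]

end Vale.Agent.P144Z.H4
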